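import Vale.Agent.P102.MathlibUsed
import Mathlib.MeasureTheory.Function.ConditionalExpectation.Real
import Mathlib.MeasureTheory.Function.ConditionalExpectation.PullOut

/-! Weak limit calculus for limit joinings (P102, block WL), abstract form. -/

namespace Vale.Agent.P102.RM.H408

open MeasureTheory Filter Topology

variable {Z : Type*} [mZ : MeasurableSpace Z]

/-- The product formula which characterises the limit joining `D` of the system `(Z, ρ, S)` along
`U` at the times `t l j`. -/
def LimForm {ι : Type*} (U : Filter ι) {k : ℕ} (t : ι → Fin k → ℤ) (S : Equiv.Perm Z)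
    (ρ : Measure Z) (D : Measure (Fin k → Z)) : Prop :=
  ∀ f : Fin k → Z → ℝ, (∀ j, Measurable (f j)) → (∀ j, ∃ C, ∀ z, |f j z| ≤ C) →
    Tendsto (fun l => ∫ z, ∏ j, f j ((S ^ t l j) z) ∂ρ) U (𝓝 (∫ w, ∏ j, f j (w j) ∂D))

variable {ι : Type*} {U : Filter ι} {k : ℕ} {t : ι → Fin k → ℤ} {S : Equiv.Perm Z}
  {ρ : Measure Z} {D : Measure (Fin k → Z)}

/-- integer powers of an invertible measure preserving map preserve the measure -/
theorem mp_zpow (hS : MeasurePreserving S ρ ρ) (hS' : MeasurePreserving (S⁻¹ : Equiv.Perm Z) ρ ρ)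
    (n : ℤ) : MeasurePreserving (S ^ n : Equiv.Perm Z) ρ ρ := by
  have hpos : ∀ m : ℕ, MeasurePreserving ((S ^ m : Equiv.Perm Z) : Z → Z) ρ ρ := by
    intro m
    induction m with
    | zero => simpa using MeasurePreserving.id ρ
    | succ m ih =>
      rw [pow_succ]
      exact ih.comp hS
  have hneg : ∀ m : ℕ, MeasurePreserving (((S⁻¹) ^ m : Equiv.Perm Z) : Z → Z) ρ ρ := by
    intro m
    induction m with
    | zero => simpa using MeasurePreserving.id ρ
    | succ m ih =>
      rw [pow_succ]
      exact ih.comp hS'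
  obtain ⟨m, rfl | rfl⟩ := n.eq_nat_or_neg
  · simpa using hpos m
  · have := hneg m
    simpa [zpow_neg, inv_pow] using this

/-- Marginals of a limit joining. -/
theorem LimForm.map_eval [IsProbabilityMeasure ρ] [IsProbabilityMeasure D] [U.NeBot]
    (hD : LimForm U t S ρ D) (hS : MeasurePreserving S ρ ρ)
    (hS' : MeasurePreserving (S⁻¹ : Equiv.Perm Z) ρ ρ) (s : Fin k) :
    D.map (fun w => w s) = ρ := by
  ext A hA
  have hmS := fun n => mp_zpow hS hS' n
  have h1 := hD (fun j => if j = s then A.indicator 1 else 1)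
    (by
      intro j
      by_cases h : j = s
      · simp only [h, if_true]; exact measurable_one.indicator hA
      · simp only [h, if_false]; exact measurable_one)
    (by
      intro j
      refine ⟨1, fun z => ?_⟩
      by_cases h : j = s
      · simp only [h, if_true]
        by_cases hz : z ∈ A <;> simp [hz]
      · simp [h])
  have h2 : ∀ g : Fin k → Z, (∏ j, (if j = s then A.indicator (1 : Z → ℝ) else 1) (g j))
      = A.indicator (1 : Z → ℝ) (g s) := by
    intro g
    rw [Finset.prod_eq_single s]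
    · simp
    · intro j _ hj; simp [hj]
    · intro h; exact absurd (Finset.mem_univ s) h
  simp only [h2] at h1
  have h3 : ∀ l, ∫ z, A.indicator (1 : Z → ℝ) ((S ^ t l s) z) ∂ρ = ρ.real A := by
    intro l
    have := (hmS (t l s)).integral_comp' (f := (⟨(S ^ t l s : Equiv.Perm Z), (hmS _).measurable, by
      have := (hmS (-(t l s))).measurable
      simpa [zpow_neg] using this⟩ : Z ≃ᵐ Z)) (A.indicator (1 : Z → ℝ))
    have h4 : ∫ z, A.indicator (1 : Z → ℝ) ((S ^ t l s) z) ∂ρ
        = ∫ z, A.indicator (1 : Z → ℝ) z ∂ρ := this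
    rw [h4, integral_indicator_one hA]
  simp only [h3] at h1
  have h5 := tendsto_nhds_unique h1 tendsto_const_nhds
  rw [Measure.map_apply (measurable_pi_apply s) hA]
  have h6 : ∫ w, A.indicator (1 : Z → ℝ) (w s) ∂D = D.real ((fun w : Fin k → Z => w s) ⁻¹' A) := by
    have : (fun w : Fin k → Z => A.indicator (1 : Z → ℝ) (w s))
        = ((fun w : Fin k → Z => w s) ⁻¹' A).indicator 1 := by
      ext w; by_cases hw : w s ∈ A <;> simp [Set.indicator, hw]
    rw [this, integral_indicator_one (measurable_pi_apply s hA)]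
  rw [h6] at h5
  rw [Measure.real, Measure.real, ENNReal.toReal_eq_toReal_iff' (measure_ne_top _ _)
    (measure_ne_top _ _)] at h5
  exact h5


/-- bounded measurable functions are integrable -/
theorem integrable_of_bdd {Ω : Type*} [MeasurableSpace Ω] {μ : Measure Ω} [IsFiniteMeasure μ]
    {f : Ω → ℝ} (hf : Measurable f) {C : ℝ} (hC : ∀ x, |f x| ≤ C) : Integrable f μ :=
  Integrable.mono' (integrable_const C) hf.aestronglyMeasurable
    (Eventually.of_forall fun x => by simpa using hC x)

/-- testing against a bounded `m`-measurable function only sees the conditional expectation -/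
theorem integral_mul_condExp {Ω : Type*} {m m0 : MeasurableSpace Ω} (hm : m ≤ m0)
    {μ : Measure[m0] Ω} [IsFiniteMeasure μ] {A β : Ω → ℝ} (hA : Measurable[m] A) {C : ℝ}
    (hC : ∀ x, |A x| ≤ C) (hβ : Integrable β μ) :
    ∫ x, A x * β x ∂μ = ∫ x, A x * (μ[β|m]) x ∂μ := by
  have hA' : StronglyMeasurable[m] A := hA.stronglyMeasurable
  have hAm : AEStronglyMeasurable A μ := (hA'.mono hm).aestronglyMeasurable
  have hint : Integrable (A * β) μ := by
    refine Integrable.bdd_mul hβ hAm (c := C) ?_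
    exact Eventually.of_forall fun x => by simpa using hC x
  have h1 := condExp_mul_of_stronglyMeasurable_left hA' hint hβ
  calc ∫ x, A x * β x ∂μ = ∫ x, (A * β) x ∂μ := rfl
    _ = ∫ x, (μ[A * β|m]) x ∂μ := (integral_condExp hm).symm
    _ = ∫ x, (A * μ[β|m]) x ∂μ := integral_congr_ae h1
    _ = _ := rfl

/-- clipping at level `C` -/
noncomputable def clipC {Ω : Type*} (C : ℝ) (f : Ω → ℝ) : Ω → ℝ := fun z => max (-C) (min C (f z))

theorem clipC_abs_le {Ω : Type*} {C : ℝ} (hC : 0 ≤ C) (f : Ω → ℝ) (z : Ω) : |clipC C f z| ≤ C := by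
  unfold clipC
  rw [abs_le]
  constructor
  · exact le_max_left _ _
  · exact max_le (by linarith) (min_le_left _ _)

theorem clipC_measurable {Ω : Type*} {C : ℝ} {m : MeasurableSpace Ω} {f : Ω → ℝ}
    (hf : Measurable[m] f) : Measurable[m] (clipC C f) :=
  (measurable_const.max (measurable_const.min hf))

/-- an everywhere bounded version of the conditional expectation -/
theorem clipC_ae_eq {Ω : Type*} {m m0 : MeasurableSpace Ω} {C : ℝ} {μ : Measure[m0] Ω}
    {β : Ω → ℝ} (hC : ∀ x, |β x| ≤ C) : clipC C (μ[β|m]) =ᵐ[μ] μ[β|m] := by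
  have hb : ∀ᵐ x ∂μ, |(μ[β|m]) x| ≤ C :=
    ae_bdd_abs_condExp_of_ae_bdd_abs (m := m) (Eventually.of_forall hC)
  filter_upwards [hb] with z hz
  unfold clipC
  rw [abs_le] at hz
  rw [min_eq_right hz.2, max_eq_right hz.1]

section factor

variable {V : Type*} [mV : MeasurableSpace V] {p : Z → V} {T : Equiv.Perm V}

omit mZ mV in
theorem factor_zpow (hp : ∀ z, p (S z) = T (p z)) (n : ℤ) (z : Z) :
    p ((S ^ n) z) = (T ^ n) (p z) := by
  have hpos : ∀ m : ℕ, ∀ z, p ((S ^ m) z) = (T ^ m) (p z) := by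
    intro m
    induction m with
    | zero => intro z; simp
    | succ m ih =>
      intro z
      rw [pow_succ, pow_succ, Equiv.Perm.mul_apply, Equiv.Perm.mul_apply, ih, hp]
  obtain ⟨m, rfl | rfl⟩ := n.eq_nat_or_neg
  · simpa using hpos m z
  · have h := hpos m ((S ^ (-(m : ℤ))) z)
    have h2 : (S ^ m) ((S ^ (-(m : ℤ))) z) = z := by
      rw [← zpow_natCast, ← Equiv.Perm.mul_apply, ← zpow_add]; simp
    rw [h2] at h
    rw [h, ← zpow_natCast, ← Equiv.Perm.mul_apply, ← zpow_add]; simp

/-- the measurable equivalence underlying an integer power -/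
def zpowEquiv (hS : MeasurePreserving S ρ ρ) (hS' : MeasurePreserving (S⁻¹ : Equiv.Perm Z) ρ ρ)
    (n : ℤ) : Z ≃ᵐ Z where
  toEquiv := (S ^ n : Equiv.Perm Z)
  measurable_toFun := (mp_zpow hS hS' n).measurable
  measurable_invFun := by
    have := (mp_zpow hS hS' (-n)).measurable
    simpa [zpow_neg] using this

theorem integral_zpow (hS : MeasurePreserving S ρ ρ)
    (hS' : MeasurePreserving (S⁻¹ : Equiv.Perm Z) ρ ρ) (n : ℤ) (g : Z → ℝ) :
    ∫ z, g ((S ^ n) z) ∂ρ = ∫ z, g z ∂ρ :=
  (mp_zpow hS hS' n).integral_comp' (f := zpowEquiv hS hS' n) g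

omit mZ in
theorem zpow_sub_apply (m n : ℤ) (z : Z) : (S ^ m) z = (S ^ (m - n)) ((S ^ n) z) := by
  rw [← Equiv.Perm.mul_apply, ← zpow_add, sub_add_cancel]

/-- **WL2**: in slot `s`, a bounded function may be replaced by its conditional expectation given
the factor `p`, provided the functions in the other slots only depend on `p`. -/
theorem LimForm.replace [IsProbabilityMeasure ρ] [IsProbabilityMeasure D] [U.NeBot]
    (hD : LimForm U t S ρ D) (hS : MeasurePreserving S ρ ρ)
    (hS' : MeasurePreserving (S⁻¹ : Equiv.Perm Z) ρ ρ)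
    (hpm : Measurable p) (hT : ∀ n : ℤ, Measurable (T ^ n : Equiv.Perm V))
    (hp : ∀ z, p (S z) = T (p z)) (s : Fin k) {a : Fin k → V → ℝ} (ha : ∀ o, Measurable (a o))
    (hab : ∀ o, ∃ C, ∀ v, |a o v| ≤ C) {β : Z → ℝ} (hβ : Measurable β) {C : ℝ}
    (hβC : ∀ z, |β z| ≤ C) :
    ∫ w, (∏ o ∈ Finset.univ.erase s, a o (p (w o))) * β (w s) ∂D
      = ∫ w, (∏ o ∈ Finset.univ.erase s, a o (p (w o))) *
          (ρ[β|MeasurableSpace.comap p mV]) (w s) ∂D := by
  have hm : MeasurableSpace.comap p mV ≤ mZ := hpm.comap_le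
  have hC0 : 0 ≤ C := by
    have : Nonempty Z := ρ.nonempty_of_neZero
    exact (abs_nonneg _).trans (hβC (Classical.arbitrary Z))
  set β' : Z → ℝ := clipC C (ρ[β|MeasurableSpace.comap p mV]) with hβ'
  have hβ'm : Measurable β' :=
    clipC_measurable (stronglyMeasurable_condExp.measurable.mono hm le_rfl)
  have hβ'C : ∀ z, |β' z| ≤ C := fun z => clipC_abs_le hC0 _ z
  have hβ'ae : β' =ᵐ[ρ] ρ[β|MeasurableSpace.comap p mV] := clipC_ae_eq hβC
  have hint : Integrable β ρ := integrable_of_bdd hβ hβC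
  -- finite level identity
  have key : ∀ l, ∫ z, (∏ o ∈ Finset.univ.erase s, a o (p ((S ^ t l o) z))) *
        β ((S ^ t l s) z) ∂ρ
      = ∫ z, (∏ o ∈ Finset.univ.erase s, a o (p ((S ^ t l o) z))) * β' ((S ^ t l s) z) ∂ρ := by
    intro l
    set A : Z → ℝ := fun z => ∏ o ∈ Finset.univ.erase s, a o ((T ^ (t l o - t l s)) (p z)) with hA
    have hAm : Measurable[MeasurableSpace.comap p mV] A := by
      have : A = (fun v => ∏ o ∈ Finset.univ.erase s, a o ((T ^ (t l o - t l s)) v)) ∘ p := rfl
      rw [this]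
      refine Measurable.comp ?_ (comap_measurable p)
      exact Finset.measurable_prod _ fun o _ => (ha o).comp (hT _)
    choose Cb hCb using hab
    have hAC : ∀ z, |A z| ≤ ∏ o ∈ Finset.univ.erase s, Cb o := by
      intro z
      rw [hA, Finset.abs_prod]
      exact Finset.prod_le_prod (fun _ _ => abs_nonneg _) fun o _ => hCb o _
    have hsub : ∀ γ : Z → ℝ, ∫ z, (∏ o ∈ Finset.univ.erase s, a o (p ((S ^ t l o) z))) *
        γ ((S ^ t l s) z) ∂ρ = ∫ z, A z * γ z ∂ρ := by
      intro γ
      rw [← integral_zpow hS hS' (t l s) (fun z => A z * γ z)]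
      refine integral_congr_ae (Eventually.of_forall fun z => ?_)
      simp only [hA]
      congr 1
      refine Finset.prod_congr rfl fun o _ => ?_
      rw [← factor_zpow hp, ← zpow_sub_apply]
    rw [hsub, hsub, integral_mul_condExp hm hAm hAC hint]
    refine integral_congr_ae ?_
    filter_upwards [hβ'ae] with z hz
    rw [hz]
  -- pass to the limit
  have lim : ∀ γ : Z → ℝ, Measurable γ → (∀ z, |γ z| ≤ C) →
      Tendsto (fun l => ∫ z, (∏ o ∈ Finset.univ.erase s, a o (p ((S ^ t l o) z))) *
        γ ((S ^ t l s) z) ∂ρ) U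
        (𝓝 (∫ w, (∏ o ∈ Finset.univ.erase s, a o (p (w o))) * γ (w s) ∂D)) := by
    intro γ hγ hγC
    have h1 := hD (fun j => if j = s then γ else fun z => a j (p z))
      (by
        intro j
        by_cases h : j = s
        · simp only [h, if_true]; exact hγ
        · simp only [h, if_false]; exact (ha j).comp hpm)
      (by
        intro j
        by_cases h : j = s
        · simp only [h, if_true]; exact ⟨C, hγC⟩
        · simp only [h, if_false]
          obtain ⟨Cj, hCj⟩ := hab j
          exact ⟨Cj, fun z => hCj _⟩)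
    have h2 : ∀ g : Fin k → Z, (∏ j, (if j = s then γ else fun z => a j (p z)) (g j))
        = (∏ o ∈ Finset.univ.erase s, a o (p (g o))) * γ (g s) := by
      intro g
      rw [← Finset.prod_erase_mul _ _ (Finset.mem_univ s)]
      simp only [if_true]
      congr 1
      refine Finset.prod_congr rfl fun o ho => ?_
      simp [Finset.ne_of_mem_erase ho]
    simpa only [h2] using h1
  have e1 := lim β hβ hβC
  have e2 := lim β' hβ'm hβ'C
  simp only [key] at e1
  have e3 := tendsto_nhds_unique e1 e2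
  rw [e3]
  have hmap := hD.map_eval hS hS' s
  have hae : ∀ᵐ w ∂D, β' (w s) = (ρ[β|MeasurableSpace.comap p mV]) (w s) := by
    have h' : ∀ᵐ z ∂(D.map (fun w => w s)), β' z = (ρ[β|MeasurableSpace.comap p mV]) z := by
      rw [hmap]; exact hβ'ae
    exact ae_of_ae_map (measurable_pi_apply s).aemeasurable h'
  refine integral_congr_ae ?_
  filter_upwards [hae] with w hw
  rw [hw]

end factor

end Vale.Agent.P102.RM.H408
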