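import Vale.Agent.P102.RM.H408.WL
import Mathlib.Probability.Independence.Basic

/-! Weak limit calculus for limit joinings (P102, block WL): conditional expectation forms. -/

namespace Vale.Agent.P102.RM.H408

open MeasureTheory Filter Topology ProbabilityTheory

/-- equality of set integrals extends from a generating pi-system -/
theorem setIntegral_eq_of_generate {Ω : Type*} {m0 : MeasurableSpace Ω} {μ : Measure Ω}
    {m : MeasurableSpace Ω} (hm : m ≤ m0) {C : Set (Set Ω)}
    (hC : m = MeasurableSpace.generateFrom C) (hpi : IsPiSystem C) {f g : Ω → ℝ}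
    (hf : Integrable f μ) (hg : Integrable g μ) (huniv : ∫ x, f x ∂μ = ∫ x, g x ∂μ)
    (h : ∀ s ∈ C, ∫ x in s, f x ∂μ = ∫ x in s, g x ∂μ) :
    ∀ s, MeasurableSet[m] s → ∫ x in s, f x ∂μ = ∫ x in s, g x ∂μ := by
  intro s hs
  induction s, hs using MeasurableSpace.induction_on_inter hC hpi with
  | empty => simp
  | basic t ht => exact h t ht
  | compl t ht ih =>
    rw [setIntegral_compl (hm _ ht) hf, setIntegral_compl (hm _ ht) hg, ih, huniv]
  | iUnion t hdis ht ih =>
    rw [integral_iUnion (fun i => hm _ (ht i)) hdis hf.integrableOn,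
      integral_iUnion (fun i => hm _ (ht i)) hdis hg.integrableOn]
    exact tsum_congr ih

section boxes

variable {k : ℕ} {Ω V : Type*} [mV : MeasurableSpace V]

/-- the preimages of boxes -/
def boxes (q : Ω → Fin k → V) : Set (Set Ω) :=
  {s | ∃ A : Fin k → Set V, (∀ o, MeasurableSet (A o)) ∧ s = {ω | ∀ o, q ω o ∈ A o}}

theorem comap_eq_generateFrom_boxes (q : Ω → Fin k → V) :
    MeasurableSpace.comap q MeasurableSpace.pi = MeasurableSpace.generateFrom (boxes q) := by
  rw [← generateFrom_pi, MeasurableSpace.comap_generateFrom]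
  congr 1
  ext s
  constructor
  · rintro ⟨t, ⟨A, hA, rfl⟩, rfl⟩
    refine ⟨A, fun o => hA o (Set.mem_univ o), ?_⟩
    ext ω; simp
  · rintro ⟨A, hA, rfl⟩
    refine ⟨Set.univ.pi A, ⟨A, fun o _ => hA o, rfl⟩, ?_⟩
    ext ω; simp

theorem isPiSystem_boxes (q : Ω → Fin k → V) : IsPiSystem (boxes q) := by
  rintro s ⟨A, hA, rfl⟩ t ⟨B, hB, rfl⟩ _
  refine ⟨fun o => A o ∩ B o, fun o => (hA o).inter (hB o), ?_⟩
  ext ω
  simp only [Set.mem_inter_iff, Set.mem_ofPred_eq]
  exact ⟨fun h o => ⟨h.1 o, h.2 o⟩, fun h => ⟨fun o => (h o).1, fun o => (h o).2⟩⟩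

omit mV in
theorem indicator_box (q : Ω → Fin k → V) (A : Fin k → Set V) (ω : Ω) :
    ({ω | ∀ o, q ω o ∈ A o} : Set Ω).indicator (fun _ => (1 : ℝ)) ω
      = ∏ o, (A o).indicator (fun _ => (1 : ℝ)) (q ω o) := by
  by_cases h : ∀ o, q ω o ∈ A o
  · rw [Set.indicator_of_mem (by exact h), Finset.prod_eq_one]
    intro o _
    rw [Set.indicator_of_mem (h o)]
  · rw [Set.indicator_of_notMem (by exact h)]
    push Not at h
    obtain ⟨o, ho⟩ := h
    rw [Finset.prod_eq_zero (Finset.mem_univ o)]
    rw [Set.indicator_of_notMem ho]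

end boxes

section factor

variable {Z : Type*} [mZ : MeasurableSpace Z]
variable {ι : Type*} {U : Filter ι} {k : ℕ} {t : ι → Fin k → ℤ} {S : Equiv.Perm Z}
  {ρ : Measure Z} {D : Measure (Fin k → Z)}
variable {V : Type*} [mV : MeasurableSpace V] {p : Z → V} {T : Equiv.Perm V}

/-- apply a map in every coordinate -/
def cmap (k : ℕ) (p : Z → V) : (Fin k → Z) → Fin k → V := fun w o => p (w o)

theorem measurable_cmap (hp : Measurable p) : Measurable (cmap k p) :=
  measurable_pi_lambda _ fun o => hp.comp (measurable_pi_apply o)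

omit mZ in
theorem comap_eval_le_cmap (s : Fin k) :
    MeasurableSpace.comap (fun w : Fin k → Z => p (w s)) mV
      ≤ MeasurableSpace.comap (cmap k p) MeasurableSpace.pi := by
  have : (fun w : Fin k → Z => p (w s)) = (fun v : Fin k → V => v s) ∘ cmap k p := rfl
  rw [this, ← MeasurableSpace.comap_comp]
  exact MeasurableSpace.comap_mono (measurable_pi_apply s).comap_le

/-- **WL3** (condExp form): given the `p`-parts of all slots, a function of slot `s` only sees the
`p`-part of slot `s`. -/
theorem LimForm.condExp_eval [IsProbabilityMeasure ρ] [IsProbabilityMeasure D] [U.NeBot]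
    (hD : LimForm U t S ρ D) (hS : MeasurePreserving S ρ ρ)
    (hS' : MeasurePreserving (S⁻¹ : Equiv.Perm Z) ρ ρ)
    (hpm : Measurable p) (hT : ∀ n : ℤ, Measurable (T ^ n : Equiv.Perm V))
    (hp : ∀ z, p (S z) = T (p z)) (s : Fin k) {β : Z → ℝ} (hβ : Measurable β) {C : ℝ}
    (hβC : ∀ z, |β z| ≤ C) :
    (fun w : Fin k → Z => (ρ[β|MeasurableSpace.comap p mV]) (w s)) =ᵐ[D]
      D[fun w => β (w s)|MeasurableSpace.comap (cmap k p) MeasurableSpace.pi] := by
  have hm : MeasurableSpace.comap p mV ≤ mZ := hpm.comap_le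
  have hM : MeasurableSpace.comap (cmap k p) MeasurableSpace.pi ≤ MeasurableSpace.pi :=
    (measurable_cmap hpm).comap_le
  have hmap := hD.map_eval hS hS' s
  have hmp : MeasurePreserving (fun w : Fin k → Z => w s) D ρ := ⟨measurable_pi_apply s, hmap⟩
  have hβi : Integrable β ρ := integrable_of_bdd hβ hβC
  have hfi : Integrable (fun w : Fin k → Z => β (w s)) D := hmp.integrable_comp_of_integrable hβi
  have hgi : Integrable (fun w : Fin k → Z => (ρ[β|MeasurableSpace.comap p mV]) (w s)) D :=
    hmp.integrable_comp_of_integrable integrable_condExp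
  refine ae_eq_condExp_of_forall_setIntegral_eq hM hfi (fun _ _ _ => hgi.integrableOn) ?_ ?_
  · intro A hA _
    refine setIntegral_eq_of_generate hM (comap_eq_generateFrom_boxes (cmap k p))
      (isPiSystem_boxes (cmap k p)) hgi hfi ?_ ?_ A hA
    · have h1 := hD.replace hS hS' hpm hT hp s (a := fun _ _ => 1) (fun _ => measurable_const)
        (fun _ => ⟨1, fun _ => by simp⟩) hβ hβC
      simpa using h1.symm
    · rintro _ ⟨A, hA, rfl⟩
      have hset : MeasurableSet ({ω | ∀ o, cmap k p ω o ∈ A o} : Set (Fin k → Z)) := by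
        have : ({ω | ∀ o, cmap k p ω o ∈ A o} : Set (Fin k → Z))
            = cmap k p ⁻¹' (Set.univ.pi A) := by ext; simp
        rw [this]
        exact measurable_cmap hpm (MeasurableSet.univ_pi hA)
      rw [← integral_indicator hset, ← integral_indicator hset]
      have hind : ∀ γ : Z → ℝ, ∀ w : Fin k → Z,
          ({ω | ∀ o, cmap k p ω o ∈ A o} : Set (Fin k → Z)).indicator (fun w => γ (w s)) w
            = (∏ o ∈ Finset.univ.erase s, (A o).indicator (fun _ => (1 : ℝ)) (p (w o))) *
              ((A s).indicator (fun _ => (1 : ℝ)) (p (w s)) * γ (w s)) := by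
        intro γ w
        have h1 := indicator_box (cmap k p) A w
        have h2 : ({ω | ∀ o, cmap k p ω o ∈ A o} : Set (Fin k → Z)).indicator
            (fun w => γ (w s)) w
            = ({ω | ∀ o, cmap k p ω o ∈ A o} : Set (Fin k → Z)).indicator
              (fun _ => (1 : ℝ)) w * γ (w s) := by
          by_cases h : w ∈ ({ω | ∀ o, cmap k p ω o ∈ A o} : Set (Fin k → Z))
          · rw [Set.indicator_of_mem h, Set.indicator_of_mem h, one_mul]
          · rw [Set.indicator_of_notMem h, Set.indicator_of_notMem h, zero_mul]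
        rw [h2, h1, ← Finset.prod_erase_mul _ _ (Finset.mem_univ s), mul_assoc]
        rfl
      simp only [hind]
      have hAs : Measurable[MeasurableSpace.comap p mV]
          (fun z => (A s).indicator (fun _ => (1 : ℝ)) (p z)) :=
        (measurable_const.indicator (hA s)).comp (comap_measurable p)
      have hAsb : ∀ v, |(A s).indicator (fun _ => (1 : ℝ)) v| ≤ 1 := by
        intro v
        by_cases hv : v ∈ A s
        · rw [Set.indicator_of_mem hv]; simp
        · rw [Set.indicator_of_notMem hv]; simp
      have hβ2 : Measurable (fun z => (A s).indicator (fun _ => (1 : ℝ)) (p z) * β z) :=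
        (hAs.mono hm le_rfl).mul hβ
      have hβ2C : ∀ z, |(A s).indicator (fun _ => (1 : ℝ)) (p z) * β z| ≤ C := by
        intro z
        rw [abs_mul]
        have := mul_le_mul (hAsb (p z)) (hβC z) (abs_nonneg _) zero_le_one
        simpa using this
      have h3 := hD.replace hS hS' hpm hT hp s
        (a := fun o => (A o).indicator (fun _ => (1 : ℝ)))
        (fun o => measurable_const.indicator (hA o))
        (fun o => ⟨1, fun v => by
          by_cases hv : v ∈ A o
          · rw [Set.indicator_of_mem hv]; simp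
          · rw [Set.indicator_of_notMem hv]; simp⟩) hβ2 hβ2C
      rw [h3]
      have h4 : ρ[fun z => (A s).indicator (fun _ => (1 : ℝ)) (p z) * β z|
          MeasurableSpace.comap p mV] =ᵐ[ρ]
          fun z => (A s).indicator (fun _ => (1 : ℝ)) (p z) *
            (ρ[β|MeasurableSpace.comap p mV]) z :=
        condExp_mul_of_stronglyMeasurable_left hAs.stronglyMeasurable
          (integrable_of_bdd hβ2 hβ2C) hβi
      have h5 : ∀ᵐ w ∂D, (ρ[fun z => (A s).indicator (fun _ => (1 : ℝ)) (p z) * β z|
          MeasurableSpace.comap p mV]) (w s) = (A s).indicator (fun _ => (1 : ℝ)) (p (w s)) *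
            (ρ[β|MeasurableSpace.comap p mV]) (w s) := by
        have h' : ∀ᵐ z ∂(D.map (fun w => w s)), (ρ[fun z => (A s).indicator (fun _ => (1 : ℝ))
          (p z) * β z|MeasurableSpace.comap p mV]) z = (A s).indicator (fun _ => (1 : ℝ)) (p z) *
            (ρ[β|MeasurableSpace.comap p mV]) z := by
          rw [hmap]; exact h4
        exact ae_of_ae_map (measurable_pi_apply s).aemeasurable h'
      refine integral_congr_ae ?_
      filter_upwards [h5] with w hw
      rw [hw]
  · refine StronglyMeasurable.aestronglyMeasurable ?_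
    have h1 : StronglyMeasurable[MeasurableSpace.comap (fun w : Fin k → Z => p (w s)) mV]
        (fun w : Fin k → Z => (ρ[β|MeasurableSpace.comap p mV]) (w s)) := by
      have h2 : MeasurableSpace.comap (fun w : Fin k → Z => p (w s)) mV
          = MeasurableSpace.comap (fun w : Fin k → Z => w s) (MeasurableSpace.comap p mV) := by
        rw [MeasurableSpace.comap_comp]; rfl
      rw [h2]
      exact stronglyMeasurable_condExp.comp_measurable (comap_measurable _)
    exact h1.mono (comap_eval_le_cmap s)

end factor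

end Vale.Agent.P102.RM.H408
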