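import Vale.Agent.P102.RM.H408.WLb
import Vale.Agent.P102.RM.ThmEStatic
import Mathlib.Probability.Independence.Integration

/-! Weak limit calculus for limit joinings (P102, block WL): row/column conditional independence
and the independent factors case. -/

namespace Vale.Agent.P102.RM.H408

open MeasureTheory Filter Topology ProbabilityTheory

theorem sm_indicator {Ω : Type*} {m : MeasurableSpace Ω} {G : Set Ω} (hG : MeasurableSet[m] G) :
    StronglyMeasurable[m] (G.indicator (fun _ => (1 : ℝ))) :=
  stronglyMeasurable_const.indicator hG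

section static

variable {Ω : Type*} {m0 : MeasurableSpace Ω} {P : Measure Ω} [IsProbabilityMeasure P]

/-- symmetry of conditional independence, conditional expectation form -/
theorem condExp_swap {mW mS mC : MeasurableSpace Ω} (hWS : mW ≤ mS) (hS : mS ≤ m0) (hC : mC ≤ m0)
    (h : ∀ G, MeasurableSet[mS] G →
      P[G.indicator (fun _ => (1 : ℝ))|mC] =ᵐ[P] P[G.indicator (fun _ => (1 : ℝ))|mW])
    {A : Ω → ℝ} (hA : StronglyMeasurable[mC] A) (hAb : AEBdd P A) :
    P[A|mS] =ᵐ[P] P[A|mW] := by
  have hW : mW ≤ m0 := hWS.trans hS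
  have hA0 : AEStronglyMeasurable[m0] A P := (hA.mono hC).aestronglyMeasurable
  have hAi : Integrable A P := hAb.integrable hA0
  symm
  refine ae_eq_condExp_of_forall_setIntegral_eq hS hAi
    (fun _ _ _ => integrable_condExp.integrableOn) ?_
    ((stronglyMeasurable_condExp.mono hWS).aestronglyMeasurable)
  intro G hG _
  have hG0 : MeasurableSet[m0] G := hS _ hG
  set g : Ω → ℝ := G.indicator (fun _ => (1 : ℝ)) with hg
  have hgm : AEStronglyMeasurable[m0] g P :=
    (sm_indicator hG0).aestronglyMeasurable
  have hgb : AEBdd P g := ⟨1, Eventually.of_forall fun ω => by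
    by_cases hω : ω ∈ G
    · simp [hg, hω]
    · simp [hg, hω]⟩
  have e : ∀ F : Ω → ℝ, ∫ ω in G, F ω ∂P = ∫ ω, F ω * g ω ∂P := by
    intro F
    rw [← integral_indicator hG0]
    refine integral_congr_ae (Eventually.of_forall fun ω => ?_)
    by_cases hω : ω ∈ G
    · simp [hg, hω]
    · simp [hg, hω]
  rw [e, e]
  have hAW : AEStronglyMeasurable[mW] (P[A|mW]) P :=
    stronglyMeasurable_condExp.aestronglyMeasurable
  have hgW : AEStronglyMeasurable[mW] (P[g|mW]) P :=
    stronglyMeasurable_condExp.aestronglyMeasurable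
  have h1 := h G hG
  calc ∫ ω, (P[A|mW]) ω * g ω ∂P
      = ∫ ω, (P[A|mW]) ω * (P[g|mW]) ω ∂P :=
        integral_mul_condExp_right hW hAW (hAb.condExp mW) hgm hgb
    _ = ∫ ω, (P[g|mW]) ω * (P[A|mW]) ω ∂P :=
        integral_congr_ae (Eventually.of_forall fun ω => by simp only; ring)
    _ = ∫ ω, (P[g|mW]) ω * A ω ∂P :=
        (integral_mul_condExp_right hW hgW (hgb.condExp mW) hA0 hAb).symm
    _ = ∫ ω, A ω * (P[g|mC]) ω ∂P := integral_congr_ae (by
        filter_upwards [h1] with ω hω
        rw [← hω]; ring)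
    _ = ∫ ω, A ω * g ω ∂P :=
        (integral_mul_condExp_right hC hA.aestronglyMeasurable hAb hgm hgb).symm

/-- products of bounded functions of independent sigma-algebras -/
theorem condExp_mul_indep {m1 m2 M1 M2 : MeasurableSpace Ω} (h1 : m1 ≤ M1) (h2 : m2 ≤ M2)
    (hM1 : M1 ≤ m0) (hM2 : M2 ≤ m0) (hI : Indep M1 M2 P) {A B : Ω → ℝ}
    (hA : StronglyMeasurable[M1] A) (hAb : AEBdd P A)
    (hB : StronglyMeasurable[M2] B) (hBb : AEBdd P B) :
    P[A * B|m1 ⊔ m2] =ᵐ[P] P[A|m1] * P[B|m2] := by
  have hm1 : m1 ≤ m0 := h1.trans hM1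
  have hm2 : m2 ≤ m0 := h2.trans hM2
  have hm12 : m1 ⊔ m2 ≤ m0 := sup_le hm1 hm2
  have hA0 : AEStronglyMeasurable[m0] A P := (hA.mono hM1).aestronglyMeasurable
  have hB0 : AEStronglyMeasurable[m0] B P := (hB.mono hM2).aestronglyMeasurable
  have hAi : Integrable A P := hAb.integrable hA0
  have hBi : Integrable B P := hBb.integrable hB0
  have hABi : Integrable (A * B) P := (hAb.mul hBb).integrable (hA0.mul hB0)
  have hE1 : StronglyMeasurable[M1] (P[A|m1]) := stronglyMeasurable_condExp.mono h1
  have hE2 : StronglyMeasurable[M2] (P[B|m2]) := stronglyMeasurable_condExp.mono h2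
  have hEi : Integrable (P[A|m1] * P[B|m2]) P :=
    ((hAb.condExp m1).mul (hBb.condExp m2)).integrable
      ((hE1.mono hM1).aestronglyMeasurable.mul (hE2.mono hM2).aestronglyMeasurable)
  -- the product formula on rectangles
  have key : ∀ (F G : Ω → ℝ), StronglyMeasurable[M1] F → Integrable F P →
      StronglyMeasurable[M2] G → Integrable G P → ∀ s t, MeasurableSet[m1] s →
      MeasurableSet[m2] t → ∫ ω in s ∩ t, (F * G) ω ∂P = (∫ ω in s, F ω ∂P) * ∫ ω in t, G ω ∂P := by
    intro F G hF hFi hG hGi s t hs ht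
    have hs0 := hm1 _ hs
    have ht0 := hm2 _ ht
    have hF' : StronglyMeasurable[M1] (s.indicator F) := hF.indicator (h1 _ hs)
    have hG' : StronglyMeasurable[M2] (t.indicator G) := hG.indicator (h2 _ ht)
    have hind : IndepFun (s.indicator F) (t.indicator G) P := by
      rw [IndepFun_iff_Indep]
      exact indep_of_indep_of_le_left (indep_of_indep_of_le_right hI
        (hG'.measurable.comap_le)) hF'.measurable.comap_le
    rw [← integral_indicator hs0, ← integral_indicator ht0,
      ← integral_indicator (hs0.inter ht0)]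
    have := hind.integral_mul_eq_mul_integral (hF'.mono hM1).aestronglyMeasurable
      (hG'.mono hM2).aestronglyMeasurable
    rw [← this]
    refine integral_congr_ae (Eventually.of_forall fun ω => ?_)
    by_cases hsω : ω ∈ s <;> by_cases htω : ω ∈ t <;> simp [hsω, htω, Set.indicator]
  symm
  refine ae_eq_condExp_of_forall_setIntegral_eq hm12 hABi (fun _ _ _ => hEi.integrableOn) ?_ ?_
  · intro G hG _
    have hgen : m1 ⊔ m2 = MeasurableSpace.generateFrom
        {u | ∃ s t, MeasurableSet[m1] s ∧ MeasurableSet[m2] t ∧ u = s ∩ t} := by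
      apply le_antisymm
      · refine sup_le ?_ ?_
        · intro s hs
          exact MeasurableSpace.measurableSet_generateFrom
            ⟨s, Set.univ, hs, MeasurableSet.univ, by simp⟩
        · intro t ht
          exact MeasurableSpace.measurableSet_generateFrom
            ⟨Set.univ, t, MeasurableSet.univ, ht, by simp⟩
      · refine MeasurableSpace.generateFrom_le ?_
        rintro _ ⟨s, t, hs, ht, rfl⟩
        exact MeasurableSet.inter ((le_sup_left : m1 ≤ m1 ⊔ m2) _ hs)
          ((le_sup_right : m2 ≤ m1 ⊔ m2) _ ht)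
    have hpi : IsPiSystem {u | ∃ s t, MeasurableSet[m1] s ∧ MeasurableSet[m2] t ∧ u = s ∩ t} := by
      rintro _ ⟨s, t, hs, ht, rfl⟩ _ ⟨s', t', hs', ht', rfl⟩ _
      exact ⟨s ∩ s', t ∩ t', hs.inter hs', ht.inter ht', by ext; simp; tauto⟩
    refine setIntegral_eq_of_generate hm12 hgen hpi hEi hABi ?_ ?_ G hG
    · have e1 := key _ _ hE1 integrable_condExp hE2 integrable_condExp Set.univ Set.univ
        MeasurableSet.univ MeasurableSet.univ
      have e2 := key _ _ hA hAi hB hBi Set.univ Set.univ MeasurableSet.univ MeasurableSet.univ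
      simp only [Set.univ_inter, setIntegral_univ] at e1 e2
      rw [e1, e2, integral_condExp hm1, integral_condExp hm2]
    · rintro _ ⟨s, t, hs, ht, rfl⟩
      rw [key _ _ hE1 integrable_condExp hE2 integrable_condExp s t hs ht,
        key _ _ hA hAi hB hBi s t hs ht, setIntegral_condExp hm1 hAi hs,
        setIntegral_condExp hm2 hBi ht]
  · refine StronglyMeasurable.aestronglyMeasurable ?_
    exact (stronglyMeasurable_condExp.mono le_sup_left).mul
      (stronglyMeasurable_condExp.mono le_sup_right)

end static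

section factor

variable {Z : Type*} [mZ : MeasurableSpace Z]
variable {ι : Type*} {U : Filter ι} {k : ℕ} {t : ι → Fin k → ℤ} {S : Equiv.Perm Z}
  {ρ : Measure Z} {D : Measure (Fin k → Z)}
variable {V : Type*} [mV : MeasurableSpace V] {p : Z → V} {T : Equiv.Perm V}

/-- **WL3 (a')**: given the `p`-parts of all slots, a function of slot `s` only sees the
`p`-part of slot `s`. -/
theorem LimForm.condExp_eval_col [IsProbabilityMeasure ρ] [IsProbabilityMeasure D] [U.NeBot]
    (hD : LimForm U t S ρ D) (hS : MeasurePreserving S ρ ρ)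
    (hS' : MeasurePreserving (S⁻¹ : Equiv.Perm Z) ρ ρ)
    (hpm : Measurable p) (hT : ∀ n : ℤ, Measurable (T ^ n : Equiv.Perm V))
    (hp : ∀ z, p (S z) = T (p z)) (s : Fin k) {β : Z → ℝ} (hβ : Measurable β) {C : ℝ}
    (hβC : ∀ z, |β z| ≤ C) :
    D[fun w => β (w s)|MeasurableSpace.comap (cmap k p) MeasurableSpace.pi]
      =ᵐ[D] D[fun w => β (w s)|MeasurableSpace.comap (fun w : Fin k → Z => p (w s)) mV] := by
  have h1 := hD.condExp_eval hS hS' hpm hT hp s hβ hβC
  have hM : MeasurableSpace.comap (cmap k p) MeasurableSpace.pi ≤ MeasurableSpace.pi :=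
    (measurable_cmap hpm).comap_le
  have hW : MeasurableSpace.comap (fun w : Fin k → Z => p (w s)) mV ≤ MeasurableSpace.pi :=
    (comap_eval_le_cmap s).trans hM
  have hg : StronglyMeasurable[MeasurableSpace.comap (fun w : Fin k → Z => p (w s)) mV]
      (fun w : Fin k → Z => (ρ[β|MeasurableSpace.comap p mV]) (w s)) := by
    have h2 : MeasurableSpace.comap (fun w : Fin k → Z => p (w s)) mV
        = MeasurableSpace.comap (fun w : Fin k → Z => w s) (MeasurableSpace.comap p mV) := by
      rw [MeasurableSpace.comap_comp]; rfl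
    rw [h2]
    exact stronglyMeasurable_condExp.comp_measurable (comap_measurable _)
  have h3 : D[D[fun w => β (w s)|MeasurableSpace.comap (cmap k p) MeasurableSpace.pi]|
      MeasurableSpace.comap (fun w : Fin k → Z => p (w s)) mV]
      =ᵐ[D] D[fun w => β (w s)|MeasurableSpace.comap (fun w : Fin k → Z => p (w s)) mV] :=
    condExp_condExp_of_le (comap_eval_le_cmap s) hM
  have h4 : D[(fun w : Fin k → Z => (ρ[β|MeasurableSpace.comap p mV]) (w s))|
      MeasurableSpace.comap (fun w : Fin k → Z => p (w s)) mV] =ᵐ[D]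
      D[D[fun w => β (w s)|MeasurableSpace.comap (cmap k p) MeasurableSpace.pi]|
      MeasurableSpace.comap (fun w : Fin k → Z => p (w s)) mV] := condExp_congr_ae h1
  have hgi : Integrable (fun w : Fin k → Z => (ρ[β|MeasurableSpace.comap p mV]) (w s)) D :=
    integrable_condExp.congr h1.symm
  rw [condExp_of_stronglyMeasurable hW hg hgi] at h4
  exact (h1.symm.trans h4).trans h3

/-- **WL3 (b)** = row/column conditional independence given the corner: a function of the
`p`-parts of all slots only sees, in slot `s`, the `p`-part. -/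
theorem LimForm.condExp_row [IsProbabilityMeasure ρ] [IsProbabilityMeasure D] [U.NeBot]
    (hD : LimForm U t S ρ D) (hS : MeasurePreserving S ρ ρ)
    (hS' : MeasurePreserving (S⁻¹ : Equiv.Perm Z) ρ ρ)
    (hpm : Measurable p) (hT : ∀ n : ℤ, Measurable (T ^ n : Equiv.Perm V))
    (hp : ∀ z, p (S z) = T (p z)) (s : Fin k) {A : (Fin k → Z) → ℝ}
    (hA : StronglyMeasurable[MeasurableSpace.comap (cmap k p) MeasurableSpace.pi] A)
    (hAb : AEBdd D A) :
    D[A|MeasurableSpace.comap (fun w : Fin k → Z => w s) mZ]
      =ᵐ[D] D[A|MeasurableSpace.comap (fun w : Fin k → Z => p (w s)) mV] := by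
  have hWS : MeasurableSpace.comap (fun w : Fin k → Z => p (w s)) mV
      ≤ MeasurableSpace.comap (fun w : Fin k → Z => w s) mZ := by
    have h2 : MeasurableSpace.comap (fun w : Fin k → Z => p (w s)) mV
        = MeasurableSpace.comap (fun w : Fin k → Z => w s) (MeasurableSpace.comap p mV) := by
      rw [MeasurableSpace.comap_comp]; rfl
    rw [h2]
    exact MeasurableSpace.comap_mono hpm.comap_le
  refine condExp_swap hWS (measurable_pi_apply s).comap_le (measurable_cmap hpm).comap_le ?_
    hA hAb
  rintro _ ⟨G, hG, rfl⟩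
  have h1 := hD.condExp_eval_col hS hS' hpm hT hp s (β := G.indicator (fun _ => (1 : ℝ)))
    (measurable_const.indicator hG) (C := 1) (fun z => by
      by_cases hz : z ∈ G
      · rw [Set.indicator_of_mem hz]; simp
      · rw [Set.indicator_of_notMem hz]; simp)
  exact h1

/-- **WL4**: a factor of a limit joining is the limit joining of the factor. -/
theorem LimForm.map (hD : LimForm U t S ρ D) (hpm : Measurable p)
    (hT : ∀ n : ℤ, Measurable (T ^ n : Equiv.Perm V)) (hp : ∀ z, p (S z) = T (p z)) :
    LimForm U t T (ρ.map p) (D.map (cmap k p)) := by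
  intro f hf hfb
  have h1 := hD (fun j z => f j (p z)) (fun j => (hf j).comp hpm) (fun j => by
    obtain ⟨C, hC⟩ := hfb j
    exact ⟨C, fun z => hC _⟩)
  have m1 : Measurable (fun w : Fin k → V => ∏ j, f j (w j)) :=
    Finset.measurable_fun_prod _ fun j _ => (hf j).comp (measurable_pi_apply j)
  have e1 : ∫ w, ∏ j, f j (w j) ∂(D.map (cmap k p)) = ∫ w, ∏ j, f j (p (w j)) ∂D :=
    integral_map (measurable_cmap hpm).aemeasurable m1.aestronglyMeasurable
  rw [e1]
  refine h1.congr fun l => ?_
  have m2 : Measurable (fun z : V => ∏ j, f j ((T ^ t l j) z)) :=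
    Finset.measurable_fun_prod _ fun j _ => (hf j).comp (hT _)
  rw [integral_map hpm.aemeasurable m2.aestronglyMeasurable]
  refine integral_congr_ae (Eventually.of_forall fun z => ?_)
  simp only
  exact Finset.prod_congr rfl fun j _ => by rw [factor_zpow hp]

/-- the product formula determines the limit joining -/
theorem LimForm.unique {D' : Measure (Fin k → Z)} [IsProbabilityMeasure D]
    [IsProbabilityMeasure D'] [U.NeBot] (hD : LimForm U t S ρ D) (hD' : LimForm U t S ρ D') :
    D = D' := by
  refine MeasureTheory.ext_of_generate_finite (boxes (fun w : Fin k → Z => w)) ?_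
    (isPiSystem_boxes _) ?_ (by simp)
  · have := comap_eq_generateFrom_boxes (fun w : Fin k → Z => w)
    rw [← this]
    exact MeasurableSpace.comap_id.symm
  · rintro _ ⟨A, hA, rfl⟩
    have hset : MeasurableSet ({ω | ∀ o, ω o ∈ A o} : Set (Fin k → Z)) := by
      have : ({ω | ∀ o, ω o ∈ A o} : Set (Fin k → Z)) = Set.univ.pi A := by ext; simp
      rw [this]
      exact MeasurableSet.univ_pi hA
    have h1 := hD (fun o => (A o).indicator (fun _ => (1 : ℝ)))
      (fun o => measurable_const.indicator (hA o)) (fun o => ⟨1, fun v => by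
          by_cases hv : v ∈ A o
          · rw [Set.indicator_of_mem hv]; simp
          · rw [Set.indicator_of_notMem hv]; simp⟩)
    have h2 := hD' (fun o => (A o).indicator (fun _ => (1 : ℝ)))
      (fun o => measurable_const.indicator (hA o)) (fun o => ⟨1, fun v => by
          by_cases hv : v ∈ A o
          · rw [Set.indicator_of_mem hv]; simp
          · rw [Set.indicator_of_notMem hv]; simp⟩)
    have h3 := tendsto_nhds_unique h1 h2
    have h4 : ∀ E : Measure (Fin k → Z), ∫ w, ∏ o, (A o).indicator (fun _ => (1 : ℝ)) (w o) ∂E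
        = E.real ({ω | ∀ o, ω o ∈ A o} : Set (Fin k → Z)) := by
      intro E
      have := fun w => indicator_box (fun w : Fin k → Z => w) A w
      simp only [← this]
      exact integral_indicator_one hset
    rw [h4, h4, Measure.real, Measure.real, ENNReal.toReal_eq_toReal_iff' (measure_ne_top _ _)
      (measure_ne_top _ _)] at h3
    exact h3

end factor

end Vale.Agent.P102.RM.H408
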