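import Vale.Agent.P102.RM.H408.WLc

/-! Weak limit calculus for limit joinings (P102, block WL): independent factors; the base case of
Theorem E. -/

namespace Vale.Agent.P102.RM.H408

open MeasureTheory Filter Topology ProbabilityTheory

variable {Z : Type*} [mZ : MeasurableSpace Z]
variable {ι : Type*} {U : Filter ι} {k : ℕ} {t : ι → Fin k → ℤ} {S : Equiv.Perm Z}
  {ρ : Measure Z} {D : Measure (Fin k → Z)}
variable {W X : Type*} [mW : MeasurableSpace W] [mX : MeasurableSpace X]
  {w : Z → W} {x : Z → X} {TW : Equiv.Perm W} {TX : Equiv.Perm X}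

theorem indicator_mul_indicator {Ω : Type*} (s t : Set Ω) (z : Ω) :
    s.indicator (fun _ => (1 : ℝ)) z * t.indicator (fun _ => (1 : ℝ)) z
      = (s ∩ t).indicator (fun _ => (1 : ℝ)) z := by
  by_cases hz : z ∈ s <;> by_cases hz' : z ∈ t <;> simp [Set.indicator, hz, hz']

/-- the product formula for products of functions of two independent factors -/
theorem LimForm.integral_mul_of_indep [IsProbabilityMeasure ρ] [U.NeBot]
    (hD : LimForm U t S ρ D) (hw : Measurable w) (hx : Measurable x)
    (hTW : ∀ n : ℤ, Measurable (TW ^ n : Equiv.Perm W))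
    (hTX : ∀ n : ℤ, Measurable (TX ^ n : Equiv.Perm X))
    (hwS : ∀ z, w (S z) = TW (w z)) (hxS : ∀ z, x (S z) = TX (x z)) (hI : IndepFun w x ρ)
    {a : Fin k → W → ℝ} {b : Fin k → X → ℝ} (ha : ∀ j, Measurable (a j))
    (hb : ∀ j, Measurable (b j)) (hab : ∀ j, ∃ C, ∀ v, |a j v| ≤ C)
    (hbb : ∀ j, ∃ C, ∀ v, |b j v| ≤ C) :
    ∫ z, (∏ j, a j (w (z j))) * ∏ j, b j (x (z j)) ∂D
      = (∫ z, ∏ j, a j (w (z j)) ∂D) * ∫ z, ∏ j, b j (x (z j)) ∂D := by
  have h1 := hD (fun j z => a j (w z) * b j (x z))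
    (fun j => ((ha j).comp hw).mul ((hb j).comp hx)) (fun j => by
      obtain ⟨C, hC⟩ := hab j
      obtain ⟨C', hC'⟩ := hbb j
      refine ⟨C * C', fun z => ?_⟩
      rw [abs_mul]
      exact mul_le_mul (hC _) (hC' _) (abs_nonneg _) ((abs_nonneg _).trans (hC (w z))))
  have h2 := hD (fun j z => a j (w z)) (fun j => (ha j).comp hw) (fun j => by
      obtain ⟨C, hC⟩ := hab j
      exact ⟨C, fun z => hC _⟩)
  have h3 := hD (fun j z => b j (x z)) (fun j => (hb j).comp hx) (fun j => by
      obtain ⟨C, hC⟩ := hbb j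
      exact ⟨C, fun z => hC _⟩)
  have h4 := h2.mul h3
  simp only [Finset.prod_mul_distrib] at h1
  refine tendsto_nhds_unique h1 (h4.congr fun l => ?_)
  have m1 : Measurable (fun v : W => ∏ j, a j ((TW ^ t l j) v)) :=
    Finset.measurable_fun_prod _ fun j _ => (ha j).comp (hTW _)
  have m2 : Measurable (fun v : X => ∏ j, b j ((TX ^ t l j) v)) :=
    Finset.measurable_fun_prod _ fun j _ => (hb j).comp (hTX _)
  have h5 : IndepFun ((fun v : W => ∏ j, a j ((TW ^ t l j) v)) ∘ w)
      ((fun v : X => ∏ j, b j ((TX ^ t l j) v)) ∘ x) ρ := hI.comp m1 m2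
  have h6 := h5.integral_mul_eq_mul_integral (m1.comp hw).aestronglyMeasurable
    (m2.comp hx).aestronglyMeasurable
  have e1 : ∀ z, (((fun v : W => ∏ j, a j ((TW ^ t l j) v)) ∘ w) z)
      = ∏ j, a j (w ((S ^ t l j) z)) := by
    intro z
    simp only [Function.comp_apply]
    exact Finset.prod_congr rfl fun j _ => by rw [factor_zpow hwS]
  have e2 : ∀ z, (((fun v : X => ∏ j, b j ((TX ^ t l j) v)) ∘ x) z)
      = ∏ j, b j (x ((S ^ t l j) z)) := by
    intro z
    simp only [Function.comp_apply]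
    exact Finset.prod_congr rfl fun j _ => by rw [factor_zpow hxS]
  simp only [Pi.mul_apply, e1, e2] at h6
  exact h6.symm

/-- **WL5**: independent factors stay independent in the limit joining. -/
theorem LimForm.indepFun [IsProbabilityMeasure ρ] [IsProbabilityMeasure D] [U.NeBot]
    (hD : LimForm U t S ρ D) (hw : Measurable w) (hx : Measurable x)
    (hTW : ∀ n : ℤ, Measurable (TW ^ n : Equiv.Perm W))
    (hTX : ∀ n : ℤ, Measurable (TX ^ n : Equiv.Perm X))
    (hwS : ∀ z, w (S z) = TW (w z)) (hxS : ∀ z, x (S z) = TX (x z)) (hI : IndepFun w x ρ) :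
    IndepFun (cmap k w) (cmap k x) D := by
  rw [IndepFun_iff_Indep]
  refine IndepSets.indep (measurable_cmap hw).comap_le (measurable_cmap hx).comap_le
    (isPiSystem_boxes (cmap k w)) (isPiSystem_boxes (cmap k x))
    (comap_eq_generateFrom_boxes _) (comap_eq_generateFrom_boxes _) ?_
  rw [IndepSets_iff]
  rintro _ _ ⟨A, hA, rfl⟩ ⟨B, hB, rfl⟩
  have hsA : MeasurableSet ({z | ∀ o, cmap k w z o ∈ A o} : Set (Fin k → Z)) := by
    have : ({z | ∀ o, cmap k w z o ∈ A o} : Set (Fin k → Z))
        = cmap k w ⁻¹' (Set.univ.pi A) := by ext; simp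
    rw [this]
    exact measurable_cmap hw (MeasurableSet.univ_pi hA)
  have hsB : MeasurableSet ({z | ∀ o, cmap k x z o ∈ B o} : Set (Fin k → Z)) := by
    have : ({z | ∀ o, cmap k x z o ∈ B o} : Set (Fin k → Z))
        = cmap k x ⁻¹' (Set.univ.pi B) := by ext; simp
    rw [this]
    exact measurable_cmap hx (MeasurableSet.univ_pi hB)
  have h1 := hD.integral_mul_of_indep hw hx hTW hTX hwS hxS hI
    (a := fun o => (A o).indicator (fun _ => (1 : ℝ)))
    (b := fun o => (B o).indicator (fun _ => (1 : ℝ)))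
    (fun o => measurable_const.indicator (hA o)) (fun o => measurable_const.indicator (hB o))
    (fun o => ⟨1, fun v => by
          by_cases hv : v ∈ A o
          · rw [Set.indicator_of_mem hv]; simp
          · rw [Set.indicator_of_notMem hv]; simp⟩)
    (fun o => ⟨1, fun v => by
          by_cases hv : v ∈ B o
          · rw [Set.indicator_of_mem hv]; simp
          · rw [Set.indicator_of_notMem hv]; simp⟩)
  have eA : ∀ z, ∏ o, (A o).indicator (fun _ => (1 : ℝ)) (w (z o))
      = ({z | ∀ o, cmap k w z o ∈ A o} : Set (Fin k → Z)).indicator (fun _ => (1 : ℝ)) z :=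
    fun z => (indicator_box (cmap k w) A z).symm
  have eB : ∀ z, ∏ o, (B o).indicator (fun _ => (1 : ℝ)) (x (z o))
      = ({z | ∀ o, cmap k x z o ∈ B o} : Set (Fin k → Z)).indicator (fun _ => (1 : ℝ)) z :=
    fun z => (indicator_box (cmap k x) B z).symm
  have eAB : ∀ z : Fin k → Z,
      ({z | ∀ o, cmap k w z o ∈ A o} : Set (Fin k → Z)).indicator (fun _ => (1 : ℝ)) z *
      ({z | ∀ o, cmap k x z o ∈ B o} : Set (Fin k → Z)).indicator (fun _ => (1 : ℝ)) z
      = (({z | ∀ o, cmap k w z o ∈ A o} : Set (Fin k → Z)) ∩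
          {z | ∀ o, cmap k x z o ∈ B o}).indicator (fun _ => (1 : ℝ)) z :=
    fun z => indicator_mul_indicator _ _ z
  simp only [eA, eB, eAB] at h1
  have i1 : ∀ {s : Set (Fin k → Z)}, MeasurableSet s →
      ∫ z, s.indicator (fun _ => (1 : ℝ)) z ∂D = D.real s := fun hs => integral_indicator_one hs
  rw [i1 hsA, i1 hsB, i1 (hsA.inter hsB)] at h1
  rw [Measure.real, Measure.real, Measure.real, ← ENNReal.toReal_mul,
    ENNReal.toReal_eq_toReal_iff' (measure_ne_top _ _)
      (ENNReal.mul_ne_top (measure_ne_top _ _) (measure_ne_top _ _))] at h1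
  exact h1

omit mW mX in
theorem prodCongr_zpow (TW : Equiv.Perm W) (TX : Equiv.Perm X) (n : ℤ) :
    ((Equiv.prodCongr TW TX : Equiv.Perm (W × X)) ^ n)
      = Equiv.prodCongr (TW ^ n) (TX ^ n) := by
  let φ : Equiv.Perm W × Equiv.Perm X →* Equiv.Perm (W × X) :=
    { toFun := fun q => Equiv.prodCongr q.1 q.2
      map_one' := by ext v <;> simp
      map_mul' := fun q r => by ext v <;> simp }
  exact (map_zpow φ (TW, TX) n).symm

/-- **WL6** (base case of Theorem E): for independent factors `w`, `x`, a product of a function of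
the `w`-parts and a function of the `x`-parts. -/
theorem LimForm.condExp_row_mul [IsProbabilityMeasure ρ] [IsProbabilityMeasure D] [U.NeBot]
    (hD : LimForm U t S ρ D) (hS : MeasurePreserving S ρ ρ)
    (hS' : MeasurePreserving (S⁻¹ : Equiv.Perm Z) ρ ρ) (hw : Measurable w) (hx : Measurable x)
    (hTW : ∀ n : ℤ, Measurable (TW ^ n : Equiv.Perm W))
    (hTX : ∀ n : ℤ, Measurable (TX ^ n : Equiv.Perm X))
    (hwS : ∀ z, w (S z) = TW (w z)) (hxS : ∀ z, x (S z) = TX (x z)) (hI : IndepFun w x ρ)
    (s : Fin k) {A B : (Fin k → Z) → ℝ}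
    (hA : StronglyMeasurable[MeasurableSpace.comap (cmap k w) MeasurableSpace.pi] A)
    (hAb : AEBdd D A)
    (hB : StronglyMeasurable[MeasurableSpace.comap (cmap k x) MeasurableSpace.pi] B)
    (hBb : AEBdd D B) :
    D[A * B|MeasurableSpace.comap (fun z : Fin k → Z => z s) mZ]
      =ᵐ[D] D[A|MeasurableSpace.comap (fun z : Fin k → Z => w (z s)) mW] *
        D[B|MeasurableSpace.comap (fun z : Fin k → Z => x (z s)) mX] := by
  have hp : Measurable (fun z => (w z, x z)) := hw.prodMk hx
  have hT : ∀ n : ℤ, Measurable ((Equiv.prodCongr TW TX : Equiv.Perm (W × X)) ^ n) := by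
    intro n
    rw [prodCongr_zpow]
    exact ((hTW n).comp measurable_fst).prodMk ((hTX n).comp measurable_snd)
  have hpS : ∀ z, (fun z => (w z, x z)) (S z)
      = (Equiv.prodCongr TW TX : Equiv.Perm (W × X)) ((fun z => (w z, x z)) z) := by
    intro z
    simp [hwS, hxS]
  have lw : MeasurableSpace.comap (cmap k w) MeasurableSpace.pi
      ≤ MeasurableSpace.comap (cmap k (fun z => (w z, x z))) MeasurableSpace.pi := by
    have : cmap k w = cmap k (Prod.fst : W × X → W) ∘ cmap k (fun z => (w z, x z)) := rfl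
    rw [this, ← MeasurableSpace.comap_comp]
    exact MeasurableSpace.comap_mono (measurable_cmap measurable_fst).comap_le
  have lx : MeasurableSpace.comap (cmap k x) MeasurableSpace.pi
      ≤ MeasurableSpace.comap (cmap k (fun z => (w z, x z))) MeasurableSpace.pi := by
    have : cmap k x = cmap k (Prod.snd : W × X → X) ∘ cmap k (fun z => (w z, x z)) := rfl
    rw [this, ← MeasurableSpace.comap_comp]
    exact MeasurableSpace.comap_mono (measurable_cmap measurable_snd).comap_le
  have h1 := hD.condExp_row hS hS' hp hT hpS s (A := A * B)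
    ((hA.mono lw).mul (hB.mono lx)) (hAb.mul hBb)
  have h2 : MeasurableSpace.comap (fun z : Fin k → Z => (w (z s), x (z s))) Prod.instMeasurableSpace
      = MeasurableSpace.comap (fun z : Fin k → Z => w (z s)) mW ⊔
        MeasurableSpace.comap (fun z : Fin k → Z => x (z s)) mX :=
    MeasurableSpace.comap_prodMk _ _
  rw [h2] at h1
  refine h1.trans ?_
  have hInd := hD.indepFun hw hx hTW hTX hwS hxS hI
  rw [IndepFun_iff_Indep] at hInd
  exact condExp_mul_indep (comap_eval_le_cmap s) (comap_eval_le_cmap s)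
    (measurable_cmap hw).comap_le (measurable_cmap hx).comap_le hInd hA hAb hB hBb

end Vale.Agent.P102.RM.H408
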